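import Vale.Agent.Lib.P368.Defs
import Vale.Agent.Lib.P368.DepthTwo

namespace Vale.Agent.Results.P368.DepthTwoExp

open Vale.Agent.P368

/-- Parity correlation at entangling depth two is at most `6 * 2 ^ (-n / 4)`, with no restriction
on the number of gates or ancillas. -/
theorem result (n N : ℕ) (hn : n ≤ N) (C : Circuit N) (out : Fin N)
    (hd : C.entanglingDepth ≤ 2) :
    |C.parityCorrelation n out| ≤ 6 * (2 : ℝ) ^ (-(n : ℝ) / 4) :=
  depth_two_bound hn C out hd

end Vale.Agent.Results.P368.DepthTwoExp
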