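import Vale.Agent.Results.P368.DepthThree
import Vale.Agent.Results.P368.DepthTwoExp

/-!
# P368: parity at entangling depth at most three

State vectors of the qubits `Q` are functions `(Q → Bool) → ℂ`; gates are maps of state vectors;
`IsLayer` and `IsCircuit` are inductive predicates.  The circuits act on `n` input qubits
(`Sum.inl i`) and `a` ancillas (`Sum.inr j`), with no restriction on `a` or the number of gates.
-/

namespace Vale.Agent.Results.P368.DepthAtMostThree

open Filter Topology

/-- state vectors of the qubits `Q` (amplitudes of the computational basis labels) -/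
abbrev State (Q : Type) : Type := (Q → Bool) → ℂ

variable {Q : Type} [DecidableEq Q]

/-- the one-qubit gate `U` applied to the qubit `q` -/
noncomputable def oneQubit (q : Q) (U : Matrix Bool Bool ℂ) (ψ : State Q) : State Q :=
  fun y => ∑ b, U (y q) b * ψ (Function.update y q b)

/-- the generalized Toffoli gate with set of controls `C` and target `t` -/
def toffoli (C : Finset Q) (t : Q) (ψ : State Q) : State Q :=
  fun y => ψ (Function.update y t (y t ^^ decide (∀ c ∈ C, y c = true)))

/-- `IsLayer S m f`: `f` is a layer, i.e. a product of gates with pairwise disjoint supports; `S` is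
the union of the supports, and `m` says whether the layer contains a multiqubit gate -/
inductive IsLayer : Finset Q → Bool → (State Q → State Q) → Prop
  | nil : IsLayer ∅ false id
  | one {S : Finset Q} {m : Bool} {f : State Q → State Q} (q : Q) (U : Matrix Bool Bool ℂ) :
      IsLayer S m f → q ∉ S → U ∈ Matrix.unitaryGroup Bool ℂ →
      IsLayer (insert q S) m (oneQubit q U ∘ f)
  | multi {S : Finset Q} {m : Bool} {f : State Q → State Q} (C : Finset Q) (t : Q) :
      IsLayer S m f → C.Nonempty → t ∉ C → Disjoint (insert t C) S →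
      IsLayer (insert t C ∪ S) true (toffoli C t ∘ f)

/-- `IsCircuit d F`: `F` is the evolution of a circuit of entangling depth `d` -/
inductive IsCircuit : ℕ → (State Q → State Q) → Prop
  | nil : IsCircuit 0 id
  | layer {d : ℕ} {S : Finset Q} {m : Bool} {F f : State Q → State Q} :
      IsCircuit d F → IsLayer S m f → IsCircuit (if m then d + 1 else d) (f ∘ F)

/-- the parity of `x` -/
def par {n : ℕ} (x : Fin n → Bool) : Bool := decide (Odd (∑ i, (x i).toNat))

/-- started in `|x⟩ ⊗ |0…0⟩`, probability that measuring the qubit `out` at the end gives `b` -/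
noncomputable def prob {n a : ℕ} (F : State (Fin n ⊕ Fin a) → State (Fin n ⊕ Fin a))
    (out : Fin n ⊕ Fin a) (x : Fin n → Bool) (b : Bool) : ℝ :=
  ∑ z with z out = b, ‖F (Pi.single (Sum.elim x fun _ => false) 1) z‖ ^ 2

/-- parity correlation: average over `x` of Pr[correct] - Pr[wrong] -/
noncomputable def corr {n a : ℕ} (F : State (Fin n ⊕ Fin a) → State (Fin n ⊕ Fin a))
    (out : Fin n ⊕ Fin a) : ℝ :=
  (∑ x : Fin n → Bool, (prob F out x (par x) - prob F out x (!par x))) / 2 ^ n

/-! ### bridge to the landed theorems -/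

open Vale.Agent.P368

theorem mat_single {N : ℕ} (q : Fin N) (U : Matrix Bool Bool ℂ)
    (hU : U ∈ Matrix.unitaryGroup Bool ℂ) (φ : Bits N → ℂ) (y : Bits N) :
    ((Gate.single q U hU).mat.mulVec φ) y = ∑ b, U (y q) b * φ (Function.update y q b) := by
  unfold Gate.mat Matrix.mulVec dotProduct
  simp only [Matrix.of_apply]
  have h : ∀ x : Bits N, (if ∀ r, r ≠ q → y r = x r then U (y q) (x q) else 0) * φ x =
      ∑ b, if x = Function.update y q b then U (y q) b * φ (Function.update y q b) else 0 := by
    intro x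
    by_cases hx : ∀ r, r ≠ q → y r = x r
    · have hx' : x = Function.update y q (x q) := by
        funext r
        by_cases hr : r = q
        · subst hr; simp
        · rw [Function.update_of_ne hr, hx r hr]
      rw [if_pos hx, Finset.sum_eq_single (x q)]
      · rw [if_pos hx', ← hx']
      · intro b _ hb
        rw [if_neg]
        intro hc
        apply hb
        have := congrFun hc q
        rw [Function.update_self] at this
        exact this.symm
      · intro h; exact absurd (Finset.mem_univ _) h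
    · rw [if_neg hx, zero_mul]
      symm
      refine Finset.sum_eq_zero fun b _ => if_neg fun hc => hx fun r hr => ?_
      rw [hc, Function.update_of_ne hr]
  rw [Finset.sum_congr rfl fun x _ => h x, Finset.sum_comm]
  refine Finset.sum_congr rfl fun b _ => ?_
  rw [Finset.sum_ite_eq' Finset.univ (Function.update y q b)]
  simp

theorem mat_toffoli {N : ℕ} (C : Finset (Fin N)) (t : Fin N) (hC : C.Nonempty) (ht : t ∉ C)
    (φ : Bits N → ℂ) (y : Bits N) : ((Gate.toffoli C t hC ht).mat.mulVec φ) y =
      φ (Function.update y t (y t ^^ decide (∀ c ∈ C, y c = true))) := by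
  unfold Gate.mat Matrix.mulVec dotProduct
  simp only [Matrix.of_apply]
  set T : Bits N → Bits N := fun x =>
    Function.update x t (x t ^^ decide (∀ c ∈ C, x c = true)) with hT
  have hoff : ∀ x : Bits N, ∀ c ∈ C, T x c = x c := by
    intro x c hc
    rw [hT]
    exact Function.update_of_ne (fun e : c = t => ht (e ▸ hc)) _ _
  have hTT : ∀ x, T (T x) = x := by
    intro x
    have h1 : decide (∀ c ∈ C, T x c = true) = decide (∀ c ∈ C, x c = true) := by
      congr 1
      exact propext (forall₂_congr fun c hc => by rw [hoff x c hc])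
    funext r
    by_cases hr : r = t
    · subst hr
      have h2 : T (T x) r = (T x r ^^ decide (∀ c ∈ C, T x c = true)) := Function.update_self ..
      have h3 : T x r = (x r ^^ decide (∀ c ∈ C, x c = true)) := Function.update_self ..
      rw [h2, h1, h3]
      simp
    · have h2 : T (T x) r = T x r := Function.update_of_ne hr _ _
      have h3 : T x r = x r := Function.update_of_ne hr _ _
      rw [h2, h3]
  have h : ∀ x : Bits N, (if y = T x then (1 : ℂ) else 0) * φ x = if x = T y then φ (T y) else 0 := by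
    intro x
    by_cases hx : y = T x
    · have : x = T y := by rw [hx, hTT]
      rw [if_pos hx, if_pos this, one_mul, ← this]
    · rw [if_neg hx, if_neg, zero_mul]
      intro hc
      exact hx (by rw [hc, hTT])
  rw [Finset.sum_congr rfl fun x _ => h x]
  simp [hT]

theorem layer_bridge {N : ℕ} (e : Q ≃ Fin N) {S : Finset Q} {m : Bool} {f : State Q → State Q}
    (h : IsLayer S m f) : ∃ L : List (Gate N),
      L.Pairwise (fun g h => Disjoint g.support h.support) ∧
      (∀ g ∈ L, g.support ⊆ S.map e.toEmbedding) ∧ L.any Gate.isMulti = m ∧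
      ∀ (ψ : State Q), (layerMat L).mulVec (fun y => ψ (y ∘ e)) = fun y => f ψ (y ∘ e) := by
  induction h with
  | nil =>
    refine ⟨[], List.Pairwise.nil, by simp, rfl, fun ψ => ?_⟩
    simp [layerMat]
  | @one S m f q U hf hq hU ih =>
    obtain ⟨L, h1, h2, h3, h4⟩ := ih
    refine ⟨Gate.single (e q) U hU :: L, List.Pairwise.cons ?_ h1, ?_, ?_, fun ψ => ?_⟩
    · intro g hg
      refine Finset.disjoint_of_subset_right (h2 g hg) ?_
      rw [Gate.support, Finset.disjoint_singleton_left, Finset.mem_map]
      rintro ⟨q', hq', he⟩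
      exact hq (e.injective he ▸ hq')
    · intro g hg
      rcases List.mem_cons.1 hg with rfl | hg
      · rw [Gate.support, Finset.singleton_subset_iff]
        exact Finset.mem_map_of_mem e.toEmbedding (Finset.mem_insert_self q S)
      · exact (h2 g hg).trans (Finset.map_subset_map.2 (Finset.subset_insert q S))
    · rw [List.any_cons, h3]
      rfl
    · have e1 : layerMat (Gate.single (e q) U hU :: L) =
          (Gate.single (e q) U hU).mat * layerMat L := by
        simp [layerMat]
      rw [e1, ← Matrix.mulVec_mulVec, h4]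
      funext y
      rw [mat_single]
      show ∑ b, U (y (e q)) b * f ψ (Function.update y (e q) b ∘ e) =
        ∑ b, U (y (e q)) b * f ψ (Function.update (y ∘ e) q b)
      simp only [Function.update_comp_eq_of_injective y e.injective]
  | @multi S m f C t hf hC ht hdis ih =>
    obtain ⟨L, h1, h2, h3, h4⟩ := ih
    have hC' : (C.map e.toEmbedding).Nonempty := hC.map
    have ht' : e t ∉ C.map e.toEmbedding := by
      rw [Finset.mem_map]
      rintro ⟨c, hc, he⟩
      exact ht (e.injective he ▸ hc)
    have hsup : (Gate.toffoli (C.map e.toEmbedding) (e t) hC' ht').support =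
        (insert t C).map e.toEmbedding := by
      rw [Gate.support, Finset.map_insert]
      rfl
    refine ⟨Gate.toffoli (C.map e.toEmbedding) (e t) hC' ht' :: L, List.Pairwise.cons ?_ h1, ?_, ?_,
      fun ψ => ?_⟩
    · intro g hg
      refine Finset.disjoint_of_subset_right (h2 g hg) ?_
      rw [hsup, Finset.disjoint_map]
      exact hdis
    · intro g hg
      rcases List.mem_cons.1 hg with rfl | hg
      · rw [hsup]
        exact Finset.map_subset_map.2 Finset.subset_union_left
      · exact (h2 g hg).trans (Finset.map_subset_map.2 Finset.subset_union_right)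
    · rw [List.any_cons]
      rfl
    · have e1 : layerMat (Gate.toffoli (C.map e.toEmbedding) (e t) hC' ht' :: L) =
          (Gate.toffoli (C.map e.toEmbedding) (e t) hC' ht').mat * layerMat L := by
        simp [layerMat]
      rw [e1, ← Matrix.mulVec_mulVec, h4]
      funext y
      rw [mat_toffoli]
      have h5 : decide (∀ c ∈ C.map e.toEmbedding, y c = true) =
          decide (∀ c ∈ C, (y ∘ e) c = true) := by
        congr 1
        refine propext ⟨fun h c hc => h _ (Finset.mem_map_of_mem e.toEmbedding hc), fun h c hc => ?_⟩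
        obtain ⟨c', hc', rfl⟩ := Finset.mem_map.1 hc
        exact h c' hc'
      rw [h5]
      simp only [Function.comp_apply, toffoli]
      congr 1
      exact Function.update_comp_eq_of_injective y e.injective t _

theorem circuit_bridge {N : ℕ} (e : Q ≃ Fin N) {d : ℕ} {F : State Q → State Q}
    (h : IsCircuit d F) : ∃ C : Circuit N, C.entanglingDepth = d ∧
      ∀ (ψ : State Q), C.mat.mulVec (fun y => ψ (y ∘ e)) = fun y => F ψ (y ∘ e) := by
  induction h with
  | nil => exact ⟨⟨[], by simp⟩, rfl, fun ψ => by simp [Circuit.mat]⟩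
  | @layer d S m F f hF hf ih =>
    obtain ⟨C, h1, h2⟩ := ih
    obtain ⟨L, g1, -, g3, g4⟩ := layer_bridge e hf
    refine ⟨⟨C.layers ++ [L], ?_⟩, ?_, fun ψ => ?_⟩
    · intro L' hL'
      rcases List.mem_append.1 hL' with hL' | hL'
      · exact C.disjoint L' hL'
      · rw [List.mem_singleton.1 hL']
        exact g1
    · unfold Circuit.entanglingDepth at h1 ⊢
      rw [List.filter_append, List.length_append, h1]
      cases m
      · simp [g3]
      · simp [g3]
    · have e1 : (Circuit.mat ⟨C.layers ++ [L], by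
          intro L' hL'
          rcases List.mem_append.1 hL' with hL' | hL'
          · exact C.disjoint L' hL'
          · rw [List.mem_singleton.1 hL']
            exact g1⟩ : Matrix (Bits N) (Bits N) ℂ) = layerMat L * C.mat := by
        simp [Circuit.mat]
      rw [e1, ← Matrix.mulVec_mulVec, h2, g4]
      rfl

/-- evolutions as circuits on `n + a` qubits -/
theorem exists_circuit {n a d : ℕ} {F : State (Fin n ⊕ Fin a) → State (Fin n ⊕ Fin a)}
    (h : IsCircuit d F) (out : Fin n ⊕ Fin a) : ∃ C : Circuit (n + a), C.entanglingDepth = d ∧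
      ∀ (x : Fin n → Bool) (b : Bool), C.prob (finSumFinEquiv out) x b = prob F out x b := by
  obtain ⟨C, h1, h2⟩ := circuit_bridge (finSumFinEquiv : Fin n ⊕ Fin a ≃ Fin (n + a)) h
  refine ⟨C, h1, fun x b => ?_⟩
  have hpad : (fun y : Bits (n + a) =>
      (Pi.single (Sum.elim x fun _ => false) 1 : State (Fin n ⊕ Fin a))
        (y ∘ (finSumFinEquiv : Fin n ⊕ Fin a ≃ Fin (n + a)))) =
      Pi.single (pad x) (1 : ℂ) := by
    have hp : (pad x : Bits (n + a)) ∘ (finSumFinEquiv : Fin n ⊕ Fin a ≃ Fin (n + a)) =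
        Sum.elim x fun _ => false := by
      funext q
      rcases q with i | j
      · simp [pad]
      · simp [pad]
    funext y
    rw [Pi.single_apply, Pi.single_apply]
    congr 1
    refine propext ⟨fun hy => ?_, fun hy => by rw [hy, hp]⟩
    rw [← hp] at hy
    exact (finSumFinEquiv : Fin n ⊕ Fin a ≃ Fin (n + a)).surjective.injective_comp_right hy
  have hcol : ∀ y : Bits (n + a), C.mat y (pad x) =
      F (Pi.single (Sum.elim x fun _ => false) 1)
        (y ∘ (finSumFinEquiv : Fin n ⊕ Fin a ≃ Fin (n + a))) := by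
    intro y
    have := congrFun (h2 (Pi.single (Sum.elim x fun _ => false) 1)) y
    rw [hpad, Matrix.mulVec_single_one] at this
    exact this
  unfold Circuit.prob prob
  rw [Finset.sum_filter, Finset.sum_filter]
  refine Fintype.sum_equiv ((finSumFinEquiv : Fin n ⊕ Fin a ≃ Fin (n + a)).symm.arrowCongr
    (Equiv.refl Bool)) _ _ fun y => ?_
  have e1 : ((finSumFinEquiv : Fin n ⊕ Fin a ≃ Fin (n + a)).symm.arrowCongr (Equiv.refl Bool)) y =
      y ∘ (finSumFinEquiv : Fin n ⊕ Fin a ≃ Fin (n + a)) := by
    funext q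
    simp
  rw [e1, hcol y]
  rfl

theorem par_eq {n : ℕ} (x : Fin n → Bool) : parity x = par x := by
  have h : (∑ i : Fin n, (x i).toNat) = ∑ i : Fin n, if x i = true then 1 else 0 :=
    Finset.sum_congr rfl fun i _ => by cases x i <;> rfl
  unfold parity par
  rw [Finset.card_filter, h]

theorem corr_eq {n a : ℕ} {F : State (Fin n ⊕ Fin a) → State (Fin n ⊕ Fin a)}
    {out : Fin n ⊕ Fin a} {C : Circuit (n + a)}
    (h : ∀ (x : Fin n → Bool) (b : Bool), C.prob (finSumFinEquiv out) x b = prob F out x b) :
    C.parityCorrelation n (finSumFinEquiv out) = corr F out := by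
  unfold Circuit.parityCorrelation corr
  rw [one_div_mul_eq_div]
  simp only [h, par_eq]

/-- the bound at depth three tends to zero -/
theorem tendsto_bound : Tendsto (fun n : ℕ =>
    300 * ((Nat.log 2 n : ℝ) + 1) ^ ((9 : ℝ) / 4) / (n : ℝ) ^ ((1 : ℝ) / 4)) atTop (𝓝 0) := by
  have h1 : Tendsto (fun n : ℕ => ((Nat.log 2 n : ℝ) + 1) / (n : ℝ) ^ ((1 : ℝ) / 9)) atTop
      (𝓝 0) := by
    have h2 : Tendsto (fun x : ℝ => Real.log x / x ^ ((1 : ℝ) / 9)) atTop (𝓝 0) :=
      (isLittleO_log_rpow_atTop (by norm_num)).tendsto_div_nhds_zero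
    have h3 : Tendsto (fun x : ℝ => 1 / x ^ ((1 : ℝ) / 9)) atTop (𝓝 0) := by
      simp only [one_div]
      exact tendsto_inv_atTop_zero.comp (tendsto_rpow_atTop (by norm_num))
    have h4 : Tendsto (fun x : ℝ => 1 / Real.log 2 * (Real.log x / x ^ ((1 : ℝ) / 9)) +
        1 / x ^ ((1 : ℝ) / 9)) atTop (𝓝 0) := by
      have := (h2.const_mul (1 / Real.log 2)).add h3
      simpa using this
    refine squeeze_zero' (Eventually.of_forall fun n => by positivity) ?_
      (h4.comp tendsto_natCast_atTop_atTop)
    filter_upwards [eventually_gt_atTop 0] with n hn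
    have hn' : (0 : ℝ) < n := by exact_mod_cast hn
    have h5 : (Nat.log 2 n : ℝ) ≤ Real.log n / Real.log 2 := by
      have := Real.natLog_le_logb n 2
      rwa [Real.logb, Nat.cast_ofNat] at this
    simp only [Function.comp_apply]
    rw [add_div]
    have h6 : (0 : ℝ) < (n : ℝ) ^ ((1 : ℝ) / 9) := by positivity
    have h7 : (Nat.log 2 n : ℝ) / (n : ℝ) ^ ((1 : ℝ) / 9) ≤
        1 / Real.log 2 * (Real.log n / (n : ℝ) ^ ((1 : ℝ) / 9)) := by
      calc (Nat.log 2 n : ℝ) / (n : ℝ) ^ ((1 : ℝ) / 9) ≤
          (Real.log n / Real.log 2) / (n : ℝ) ^ ((1 : ℝ) / 9) := by gcongr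
        _ = _ := by ring
    linarith
  have h8 := (h1.rpow_const (p := (9 : ℝ) / 4) (Or.inr (by norm_num))).const_mul 300
  rw [Real.zero_rpow (by norm_num), mul_zero] at h8
  refine h8.congr fun n => ?_
  rw [Real.div_rpow (by positivity) (by positivity), ← Real.rpow_mul (by positivity), mul_div_assoc]
  norm_num

/-- **Parity at entangling depth at most three**, no restriction on the number of gates or
ancillas. -/
theorem result :
    (∀ ε : ℝ, 0 < ε → ∃ n₀ : ℕ, ∀ n : ℕ, n₀ ≤ n → ∀ (a d : ℕ)
      (F : State (Fin n ⊕ Fin a) → State (Fin n ⊕ Fin a)) (out : Fin n ⊕ Fin a),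
      IsCircuit d F → d ≤ 3 → ¬ ∀ x : Fin n → Bool, 1 / 2 + ε ≤ prob F out x (par x)) ∧
    (∀ (n a d : ℕ) (F : State (Fin n ⊕ Fin a) → State (Fin n ⊕ Fin a)) (out : Fin n ⊕ Fin a),
      1 ≤ n → IsCircuit d F →
      (d ≤ 3 → |corr F out| ≤
        600 * ((Nat.log 2 n : ℝ) + 1) ^ ((9 : ℝ) / 4) / (n : ℝ) ^ ((1 : ℝ) / 4)) ∧
      (d ≤ 3 → ∀ ε : ℝ, (∀ x : Fin n → Bool, 1 / 2 + ε ≤ prob F out x (par x)) →
        ε ≤ 300 * ((Nat.log 2 n : ℝ) + 1) ^ ((9 : ℝ) / 4) / (n : ℝ) ^ ((1 : ℝ) / 4)) ∧
      (d ≤ 2 → |corr F out| ≤ 6 * (2 : ℝ) ^ (-(n : ℝ) / 4))) := by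
  have main : ∀ (n a d : ℕ) (F : State (Fin n ⊕ Fin a) → State (Fin n ⊕ Fin a))
      (out : Fin n ⊕ Fin a), 1 ≤ n → IsCircuit d F →
      (d ≤ 3 → |corr F out| ≤
        600 * ((Nat.log 2 n : ℝ) + 1) ^ ((9 : ℝ) / 4) / (n : ℝ) ^ ((1 : ℝ) / 4)) ∧
      (d ≤ 3 → ∀ ε : ℝ, (∀ x : Fin n → Bool, 1 / 2 + ε ≤ prob F out x (par x)) →
        ε ≤ 300 * ((Nat.log 2 n : ℝ) + 1) ^ ((9 : ℝ) / 4) / (n : ℝ) ^ ((1 : ℝ) / 4)) ∧
      (d ≤ 2 → |corr F out| ≤ 6 * (2 : ℝ) ^ (-(n : ℝ) / 4)) := by
    intro n a d F out hn hF
    obtain ⟨C, hd, hC⟩ := exists_circuit hF out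
    refine ⟨fun h3 => ?_, fun h3 ε hε => ?_, fun h2 => ?_⟩
    · rw [← corr_eq hC]
      exact (DepthThree.result n (n + a) hn (Nat.le_add_right n a) C _ (hd.le.trans h3)).1
    · refine (DepthThree.result n (n + a) hn (Nat.le_add_right n a) C (finSumFinEquiv out)
        (hd.le.trans h3)).2 ε fun x => ?_
      rw [par_eq, hC]
      exact hε x
    · rw [← corr_eq hC]
      exact DepthTwoExp.result n (n + a) (Nat.le_add_right n a) C _ (hd.le.trans h2)
  refine ⟨fun ε hε => ?_, main⟩
  obtain ⟨n₀, hn₀⟩ := eventually_atTop.1 (tendsto_bound.eventually (gt_mem_nhds hε))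
  refine ⟨max n₀ 1, fun n hn a d F out hF hd hall => ?_⟩
  have h1 := (main n a d F out ((le_max_right _ _).trans hn) hF).2.1 hd ε hall
  have h2 := hn₀ n ((le_max_left _ _).trans hn)
  linarith

end Vale.Agent.Results.P368.DepthAtMostThree
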