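import Vale.Agent.Lib.P368.Defs
import Vale.Agent.Lib.P368.DepthThreeMain

namespace Vale.Agent.Results.P368.DepthThree

open Vale.Agent.P368

/-- Entangling depth three, with no restriction on the number of gates or ancillas: the parity
correlation is at most `600 * (log n + 1) ^ (9 / 4) / n ^ (1 / 4)`, and so no fixed worst-case
advantage is possible for large `n`. -/
theorem result (n N : ℕ) (hn1 : 1 ≤ n) (hn : n ≤ N) (C : Circuit N) (out : Fin N)
    (hd : C.entanglingDepth ≤ 3) :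
    |C.parityCorrelation n out| ≤
      600 * ((Nat.log 2 n : ℝ) + 1) ^ ((9 : ℝ) / 4) / (n : ℝ) ^ ((1 : ℝ) / 4) ∧
    ∀ ε : ℝ, (∀ x : Fin n → Bool, 1 / 2 + ε ≤ C.prob out x (parity x)) →
      ε ≤ 300 * ((Nat.log 2 n : ℝ) + 1) ^ ((9 : ℝ) / 4) / (n : ℝ) ^ ((1 : ℝ) / 4) :=
  ⟨depth_three_bound hn1 hn C out hd,
    fun _ hε => depth_three_advantage hn1 hn C out hd hε⟩

end Vale.Agent.Results.P368.DepthThree
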